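import Vale.Agent.Lib.P027.Quadric
import Vale.Agent.Lib.P027.Curve

/-!
# P027: two obstructions to a one-equation Diophantine definition of `ℤ` in `ℚ`

For a polynomial `g` over `ℚ` in the variables `x = X 0` and `y = (X 1, …, X m)` we consider
the existentially (Diophantine) defined set `exDef g = {x ∈ ℚ | ∃ y ∈ ℚ^m, g (x, y) = 0}`.

The theorem is the conjunction of two results about polynomials `g` with `exDef g ⊆ ℤ`:

* (A) if `g` has total degree at most `2`, then `exDef g` has at most two elements, so `exDef g`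
  is never equal to `ℤ`;
* (B) for `g` of any degree, every rational map `t ↦ (p₀(t)/d(t), …, p_m(t)/d(t))` from an affine
  space into the hypersurface `g = 0` has constant `x`-coordinate: `p₀ = z * d` for an integer `z`.
-/

namespace Vale.Agent.Results.P027.QuadricAndRationalMaps

open Vale.Agent.Lib.P027

/-- The subset of `ℚ` defined by the existential formula `∃ y ∈ ℚ^m, g (x, y) = 0`,
where `x` is substituted for the variable `X 0` and `y` for the variables `X 1, …, X m`. -/
def exDef {m : ℕ} (g : MvPolynomial (Fin (m + 1)) ℚ) : Set ℚ :=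
  {x : ℚ | ∃ y : Fin m → ℚ, MvPolynomial.eval (Fin.cons x y : Fin (m + 1) → ℚ) g = 0}

theorem finite_of_subset_int {m : ℕ} (g : MvPolynomial (Fin (m + 1)) ℚ)
    (hg : g.totalDegree ≤ 2) (hsub : exDef g ⊆ Set.range ((↑) : ℤ → ℚ)) :
    (exDef g).Finite ∧ (exDef g).ncard ≤ 2 := by
  have hA : ∀ P : Fin (m + 1) → ℚ, MvPolynomial.eval P g = 0 → ∃ z : ℤ, P 0 = (z : ℚ) := by
    intro P hP
    have hmem : P 0 ∈ exDef g := by
      refine ⟨Fin.tail P, ?_⟩
      rw [Fin.cons_self_tail]
      exact hP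
    obtain ⟨z, hz⟩ := hsub hmem
    exact ⟨z, hz.symm⟩
  have h3 : ∀ a b c : ℚ, a ∈ exDef g → b ∈ exDef g → c ∈ exDef g →
      a ≠ b → a ≠ c → b ≠ c → False := by
    intro a b c ha hb hc hab hac hbc
    obtain ⟨ya, hya⟩ := ha
    obtain ⟨yb, hyb⟩ := hb
    obtain ⟨yc, hyc⟩ := hc
    exact no_three g hg 0 hA _ _ _ hya hyb hyc (by simpa using hab) (by simpa using hac)
      (by simpa using hbc)
  have hfin : (exDef g).Finite := by
    by_contra hinf
    obtain ⟨t, ht, htc⟩ := Set.Infinite.exists_subset_card_eq hinf 3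
    obtain ⟨a, b, c, hab, hac, hbc, rfl⟩ := Finset.card_eq_three.mp htc
    exact h3 a b c (ht (by simp)) (ht (by simp)) (ht (by simp)) hab hac hbc
  refine ⟨hfin, ?_⟩
  by_contra hcard
  have hlt : 2 < (exDef g).ncard := by omega
  obtain ⟨a, ha, b, hb, c, hc, hab, hac, hbc⟩ := (Set.two_lt_ncard hfin).mp hlt
  exact h3 a b c ha hb hc hab hac hbc

/-- **Main result.**
(A) Let `g ∈ ℚ[x, y₁, …, y_m]` have total degree at most `2`.  If the existentially defined set
`{x ∈ ℚ | ∃ y ∈ ℚ^m, g (x, y) = 0}` is contained in `ℤ`, then it is finite with at most two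
elements; consequently this set is never equal to `ℤ`.
(B) Let `g ∈ ℚ[x, y₁, …, y_m]` (of any degree) be such that the existentially defined set is
contained in `ℤ`.  Let `p₀, …, p_m, d` be polynomials in `r` variables over `ℚ` with `d ≠ 0` such
that `g (p₀(t)/d(t), …, p_m(t)/d(t)) = 0` for every `t ∈ ℚ^r` with `d(t) ≠ 0`.  Then `p₀ = z * d`
for some integer `z`, that is, the `x`-coordinate `p₀/d` of the rational map is a constant
integer. -/
theorem result :
    (∀ (m : ℕ) (g : MvPolynomial (Fin (m + 1)) ℚ), g.totalDegree ≤ 2 →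
      (exDef g ⊆ Set.range ((↑) : ℤ → ℚ) → (exDef g).Finite ∧ (exDef g).ncard ≤ 2) ∧
      exDef g ≠ Set.range ((↑) : ℤ → ℚ)) ∧
    (∀ (m r : ℕ) (g : MvPolynomial (Fin (m + 1)) ℚ),
      exDef g ⊆ Set.range ((↑) : ℤ → ℚ) →
      ∀ (p : Fin (m + 1) → MvPolynomial (Fin r) ℚ) (d : MvPolynomial (Fin r) ℚ), d ≠ 0 →
        (∀ t : Fin r → ℚ, MvPolynomial.eval t d ≠ 0 →
          MvPolynomial.eval (fun i => MvPolynomial.eval t (p i) / MvPolynomial.eval t d) g = 0) →
        ∃ z : ℤ, p 0 = MvPolynomial.C (z : ℚ) * d) := by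
  refine ⟨?_, ?_⟩
  · intro m g hg
    refine ⟨finite_of_subset_int g hg, ?_⟩
    intro heq
    have h := (finite_of_subset_int g hg heq.subset).1
    rw [heq] at h
    exact (Set.infinite_range_of_injective Int.cast_injective) h
  · intro m r g hsub p d hd hcurve
    apply intValued_mvRatFunc (p 0) d hd
    intro t ht
    have hmem : MvPolynomial.eval t (p 0) / MvPolynomial.eval t d ∈ exDef g := by
      refine ⟨Fin.tail (fun i => MvPolynomial.eval t (p i) / MvPolynomial.eval t d), ?_⟩
      have h := hcurve t ht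
      rw [← Fin.cons_self_tail (fun i => MvPolynomial.eval t (p i) / MvPolynomial.eval t d)] at h
      exact h
    obtain ⟨z, hz⟩ := hsub hmem
    exact ⟨z, hz.symm⟩

end Vale.Agent.Results.P027.QuadricAndRationalMaps
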