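import Vale.Agent.Lib.P027.Quadric

/-!
# P027: a single quadratic equation never defines `ℤ` existentially in `ℚ`

For a polynomial `g` over `ℚ` in the variables `x = X 0` and `y = (X 1, …, X m)` we consider
the existentially (Diophantine) defined set `exDef g = {x ∈ ℚ | ∃ y ∈ ℚ^m, g (x, y) = 0}`.

We prove: if `g` has total degree at most `2` and `exDef g` consists of integers, then
`exDef g` has at most two elements.  In particular `exDef g` is never equal to `ℤ`
(nor to any infinite set of integers).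
-/

namespace Vale.Agent.Results.P027.QuadricNotZ

open Vale.Agent.Lib.P027

/-- The subset of `ℚ` defined by the existential formula `∃ y ∈ ℚ^m, g (x, y) = 0`,
where `x` is substituted for the variable `X 0` and `y` for the variables `X 1, …, X m`. -/
def exDef {m : ℕ} (g : MvPolynomial (Fin (m + 1)) ℚ) : Set ℚ :=
  {x : ℚ | ∃ y : Fin m → ℚ, MvPolynomial.eval (Fin.cons x y : Fin (m + 1) → ℚ) g = 0}

theorem finite_of_subset_int {m : ℕ} (g : MvPolynomial (Fin (m + 1)) ℚ)
    (hg : g.totalDegree ≤ 2) (hsub : exDef g ⊆ Set.range ((↑) : ℤ → ℚ)) :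
    (exDef g).Finite ∧ (exDef g).ncard ≤ 2 := by
  have hA : ∀ P : Fin (m + 1) → ℚ, MvPolynomial.eval P g = 0 → ∃ z : ℤ, P 0 = (z : ℚ) := by
    intro P hP
    have hmem : P 0 ∈ exDef g := by
      refine ⟨Fin.tail P, ?_⟩
      rw [Fin.cons_self_tail]
      exact hP
    obtain ⟨z, hz⟩ := hsub hmem
    exact ⟨z, hz.symm⟩
  have h3 : ∀ a b c : ℚ, a ∈ exDef g → b ∈ exDef g → c ∈ exDef g →
      a ≠ b → a ≠ c → b ≠ c → False := by
    intro a b c ha hb hc hab hac hbc
    obtain ⟨ya, hya⟩ := ha
    obtain ⟨yb, hyb⟩ := hb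
    obtain ⟨yc, hyc⟩ := hc
    exact no_three g hg 0 hA _ _ _ hya hyb hyc (by simpa using hab) (by simpa using hac)
      (by simpa using hbc)
  have hfin : (exDef g).Finite := by
    by_contra hinf
    obtain ⟨t, ht, htc⟩ := Set.Infinite.exists_subset_card_eq hinf 3
    obtain ⟨a, b, c, hab, hac, hbc, rfl⟩ := Finset.card_eq_three.mp htc
    exact h3 a b c (ht (by simp)) (ht (by simp)) (ht (by simp)) hab hac hbc
  refine ⟨hfin, ?_⟩
  by_contra hcard
  have hlt : 2 < (exDef g).ncard := by omega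
  obtain ⟨a, ha, b, hb, c, hc, hab, hac, hbc⟩ := (Set.two_lt_ncard hfin).mp hlt
  exact h3 a b c ha hb hc hab hac hbc

/-- **Main result.** Let `g ∈ ℚ[x, y₁, …, y_m]` have total degree at most `2`.
(1) If the existentially defined set `{x ∈ ℚ | ∃ y ∈ ℚ^m, g (x, y) = 0}` is contained in `ℤ`,
then it is finite with at most two elements.
(2) Consequently this set is never equal to `ℤ`. -/
theorem result : ∀ (m : ℕ) (g : MvPolynomial (Fin (m + 1)) ℚ), g.totalDegree ≤ 2 →
    (exDef g ⊆ Set.range ((↑) : ℤ → ℚ) → (exDef g).Finite ∧ (exDef g).ncard ≤ 2) ∧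
    exDef g ≠ Set.range ((↑) : ℤ → ℚ) := by
  intro m g hg
  refine ⟨finite_of_subset_int g hg, ?_⟩
  intro heq
  have h := (finite_of_subset_int g hg heq.subset).1
  rw [heq] at h
  exact (Set.infinite_range_of_injective Int.cast_injective) h

end Vale.Agent.Results.P027.QuadricNotZ
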