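import Vale.Agent.Lib.P027.Curve

/-!
# P027: unirational pieces of a Diophantine definition of (a subset of) `ℤ` are vertical

For `g ∈ ℚ[x, y₁, …, y_m]` let `exDef g = {x ∈ ℚ | ∃ y ∈ ℚ^m, g (x, y) = 0}`.
If `exDef g ⊆ ℤ` (for instance if `g` defines `ℤ` existentially in `ℚ`), then every rational map
`t ↦ (p₀(t)/d(t), …, p_m(t)/d(t))` from an affine space into the hypersurface `g = 0` has
constant `x`-coordinate: `p₀ = z * d` for an integer `z`.  No restriction on the degree of `g`.
-/

namespace Vale.Agent.Results.P027.RationalMapVertical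

open Vale.Agent.Lib.P027

/-- The subset of `ℚ` defined by the existential formula `∃ y ∈ ℚ^m, g (x, y) = 0`,
where `x` is substituted for the variable `X 0` and `y` for the variables `X 1, …, X m`. -/
def exDef {m : ℕ} (g : MvPolynomial (Fin (m + 1)) ℚ) : Set ℚ :=
  {x : ℚ | ∃ y : Fin m → ℚ, MvPolynomial.eval (Fin.cons x y : Fin (m + 1) → ℚ) g = 0}

/-- **Main result.** Let `g ∈ ℚ[x, y₁, …, y_m]` be such that the existentially defined set
`{x ∈ ℚ | ∃ y ∈ ℚ^m, g (x, y) = 0}` is contained in `ℤ`.  Let `p₀, …, p_m, d` be polynomials in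
`r` variables over `ℚ` with `d ≠ 0` such that `g (p₀(t)/d(t), …, p_m(t)/d(t)) = 0` for every
`t ∈ ℚ^r` with `d(t) ≠ 0`.  Then `p₀ = z * d` for some integer `z`, that is, the `x`-coordinate
`p₀/d` of the rational map is a constant integer. -/
theorem result : ∀ (m r : ℕ) (g : MvPolynomial (Fin (m + 1)) ℚ),
    exDef g ⊆ Set.range ((↑) : ℤ → ℚ) →
    ∀ (p : Fin (m + 1) → MvPolynomial (Fin r) ℚ) (d : MvPolynomial (Fin r) ℚ), d ≠ 0 →
      (∀ t : Fin r → ℚ, MvPolynomial.eval t d ≠ 0 →
        MvPolynomial.eval (fun i => MvPolynomial.eval t (p i) / MvPolynomial.eval t d) g = 0) →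
      ∃ z : ℤ, p 0 = MvPolynomial.C (z : ℚ) * d := by
  intro m r g hsub p d hd hcurve
  apply intValued_mvRatFunc (p 0) d hd
  intro t ht
  have hmem : MvPolynomial.eval t (p 0) / MvPolynomial.eval t d ∈ exDef g := by
    refine ⟨Fin.tail (fun i => MvPolynomial.eval t (p i) / MvPolynomial.eval t d), ?_⟩
    have h := hcurve t ht
    rw [← Fin.cons_self_tail (fun i => MvPolynomial.eval t (p i) / MvPolynomial.eval t d)] at h
    exact h
  obtain ⟨z, hz⟩ := hsub hmem
  exact ⟨z, hz.symm⟩

end Vale.Agent.Results.P027.RationalMapVertical
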